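import Mathlib

/-!
Inversion is continuous in matrix rings over a topological ring in which units are
open at one and inversion is continuous at one (for instance a topological division ring).
-/

namespace Vale.Agent.P011.H341.Odd

open Matrix Filter Topology

/-- Units are a neighbourhood of one and inversion is continuous at one. -/
def InvGood (R : Type*) [Ring R] [TopologicalSpace R] : Prop :=
  (∀ᶠ x in 𝓝 (1 : R), IsUnit x) ∧ ContinuousAt Ring.inverse (1 : R)

section ring

variable {R : Type*} [Ring R] [TopologicalSpace R]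

omit [TopologicalSpace R] in
theorem inverse_mul_unit (u : Rˣ) {x : R} (hx : IsUnit x) :
    Ring.inverse x = Ring.inverse ((↑u⁻¹ : R) * x) * (↑u⁻¹ : R) := by
  obtain ⟨v, rfl⟩ := hx
  rw [← Units.val_mul, Ring.inverse_unit, Ring.inverse_unit, ← Units.val_mul]
  congr 1
  group

theorem InvGood.eventually [IsTopologicalRing R] (h : InvGood R) {a : R} (ha : IsUnit a) :
    ∀ᶠ x in 𝓝 a, IsUnit x := by
  obtain ⟨u, rfl⟩ := ha
  have hc : Tendsto (fun x : R => (↑u⁻¹ : R) * x) (𝓝 (u : R)) (𝓝 1) := by
    have : Continuous (fun x : R => (↑u⁻¹ : R) * x) := continuous_const.mul continuous_id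
    simpa using this.tendsto (u : R)
  filter_upwards [hc.eventually h.1] with x hx
  have := u.isUnit.mul hx
  simpa using this

theorem InvGood.continuousAt [IsTopologicalRing R] (h : InvGood R) {a : R} (ha : IsUnit a) :
    ContinuousAt Ring.inverse a := by
  have hev := h.eventually ha
  obtain ⟨u, rfl⟩ := ha
  have hc : ContinuousAt (fun x : R => (↑u⁻¹ : R) * x) (u : R) :=
    (continuous_const.mul continuous_id).continuousAt
  have h1 : ContinuousAt Ring.inverse ((↑u⁻¹ : R) * (u : R)) := by
    simpa using h.2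
  have h2 : ContinuousAt (fun x : R => Ring.inverse ((↑u⁻¹ : R) * x) * (↑u⁻¹ : R)) (u : R) :=
    (ContinuousAt.comp (f := fun x : R => (↑u⁻¹ : R) * x) h1 hc).mul continuousAt_const
  refine h2.congr ?_
  filter_upwards [hev] with x hx
  exact (inverse_mul_unit u hx).symm

/-- The open set form. -/
theorem InvGood.isOpen_units [IsTopologicalRing R] (h : InvGood R) :
    IsOpen {x : R | IsUnit x} := by
  rw [isOpen_iff_mem_nhds]
  intro a ha
  exact h.eventually ha

theorem InvGood.continuousOn [IsTopologicalRing R] (h : InvGood R) :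
    ContinuousOn Ring.inverse {x : R | IsUnit x} :=
  fun _ ha => (h.continuousAt ha).continuousWithinAt

theorem InvGood.tendsto [IsTopologicalRing R] (h : InvGood R) {α : Type*} {l : Filter α}
    {f : α → R} {a : R} (ha : IsUnit a) (hf : Tendsto f l (𝓝 a)) :
    Tendsto (fun x => Ring.inverse (f x)) l (𝓝 (Ring.inverse a)) :=
  (h.continuousAt ha).tendsto.comp hf

omit [TopologicalSpace R] in
theorem inverse_eq_of {x y : R} (h1 : x * y = 1) (h2 : y * x = 1) : Ring.inverse x = y := by
  have := Ring.inverse_unit (⟨x, y, h1, h2⟩ : Rˣ)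
  simpa using this

/-- Transfer along a ring isomorphism which is a homeomorphism. -/
theorem InvGood.transfer {R' : Type*} [Ring R'] [TopologicalSpace R'] (h : InvGood R)
    (e : R ≃+* R') (he : Continuous e) (he' : Continuous e.symm) : InvGood R' := by
  have hc : Tendsto e.symm (𝓝 (1 : R')) (𝓝 (1 : R)) := by
    simpa using he'.tendsto (1 : R')
  have hu : ∀ᶠ x in 𝓝 (1 : R'), IsUnit (e.symm x) := hc.eventually h.1
  refine ⟨?_, ?_⟩
  · filter_upwards [hu] with x hx
    simpa using hx.map e
  · have h0 : ContinuousAt Ring.inverse (e.symm (1 : R')) := by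
      simpa using h.2
    have h2 : ContinuousAt (fun x : R' => Ring.inverse (e.symm x)) (1 : R') :=
      ContinuousAt.comp (f := fun x : R' => e.symm x) h0 he'.continuousAt
    have h1 : ContinuousAt (fun x : R' => e (Ring.inverse (e.symm x))) (1 : R') :=
      he.continuousAt.comp (f := fun x : R' => Ring.inverse (e.symm x)) h2
    refine h1.congr ?_
    filter_upwards [hu] with x hx
    symm
    apply inverse_eq_of
    · have := congrArg e (Ring.mul_inverse_cancel _ hx)
      simpa using this
    · have := congrArg e (Ring.inverse_mul_cancel _ hx)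
      simpa using this

end ring

section blocks

variable {D : Type*} [Ring D]
variable {m n : Type*} [Fintype m] [DecidableEq m] [Fintype n] [DecidableEq n]

/-- The block inverse through the Schur complement of the upper left block. -/
theorem block_inverse {A Ai : Matrix m m D} {B : Matrix m n D} {C : Matrix n m D}
    {E S Si : Matrix n n D} (hA : A * Ai = 1) (hA' : Ai * A = 1) (hS : S = E - C * Ai * B)
    (h1 : S * Si = 1) (h2 : Si * S = 1) :
    fromBlocks A B C E *
        fromBlocks (Ai + Ai * B * Si * C * Ai) (-(Ai * B * Si)) (-(Si * C * Ai)) Si = 1 ∧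
      fromBlocks (Ai + Ai * B * Si * C * Ai) (-(Ai * B * Si)) (-(Si * C * Ai)) Si *
        fromBlocks A B C E = 1 := by
  have hE : E = S + C * Ai * B := by rw [hS]; abel
  have a1 : ∀ X : Matrix m n D, A * (Ai * X) = X := fun X => by
    rw [← Matrix.mul_assoc, hA, Matrix.one_mul]
  have a2 : ∀ X : Matrix m m D, A * (Ai * X) = X := fun X => by
    rw [← Matrix.mul_assoc, hA, Matrix.one_mul]
  have s1 : ∀ X : Matrix n m D, S * (Si * X) = X := fun X => by
    rw [← Matrix.mul_assoc, h1, Matrix.one_mul]
  subst hE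
  constructor
  · rw [fromBlocks_multiply, ← fromBlocks_one]
    congr 1
    · simp only [Matrix.mul_add, Matrix.mul_neg, Matrix.mul_assoc, a2, hA]
      abel
    · simp only [Matrix.mul_neg, Matrix.mul_assoc, a1]
      abel
    · simp only [Matrix.mul_add, Matrix.add_mul, Matrix.mul_neg, Matrix.mul_assoc, s1]
      abel
    · simp only [Matrix.mul_neg, Matrix.add_mul, Matrix.mul_assoc, h1]
      abel
  · rw [fromBlocks_multiply, ← fromBlocks_one]
    congr 1
    · simp only [Matrix.add_mul, Matrix.neg_mul, Matrix.mul_assoc, hA', Matrix.mul_one]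
      abel
    · simp only [Matrix.add_mul, Matrix.neg_mul, Matrix.mul_add, Matrix.mul_assoc, h2,
        Matrix.mul_one]
      abel
    · simp only [Matrix.neg_mul, Matrix.mul_assoc, hA', Matrix.mul_one]
      abel
    · simp only [Matrix.neg_mul, Matrix.mul_add, Matrix.mul_assoc, h2]
      abel

variable [TopologicalSpace D] [IsTopologicalRing D]

theorem cmul {X a b c : Type*} [TopologicalSpace X] [Fintype b] {x : X} {f : X → Matrix a b D}
    {g : X → Matrix b c D} (hf : ContinuousAt f x) (hg : ContinuousAt g x) :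
    ContinuousAt (fun y => f y * g y) x := by
  have hcont : Continuous fun p : Matrix a b D × Matrix b c D => p.1 * p.2 :=
    continuous_fst.matrix_mul continuous_snd
  exact ContinuousAt.comp (f := fun y => (f y, g y)) hcont.continuousAt (hf.prodMk hg)

theorem InvGood.fromBlocks (hm : InvGood (Matrix m m D)) (hn : InvGood (Matrix n n D)) :
    InvGood (Matrix (m ⊕ n) (m ⊕ n) D) := by
  -- the upper left block
  have c11 : Continuous fun X : Matrix (m ⊕ n) (m ⊕ n) D => X.toBlocks₁₁ :=
    continuous_id.matrix_submatrix _ _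
  have c12 : Continuous fun X : Matrix (m ⊕ n) (m ⊕ n) D => X.toBlocks₁₂ :=
    continuous_id.matrix_submatrix _ _
  have c21 : Continuous fun X : Matrix (m ⊕ n) (m ⊕ n) D => X.toBlocks₂₁ :=
    continuous_id.matrix_submatrix _ _
  have c22 : Continuous fun X : Matrix (m ⊕ n) (m ⊕ n) D => X.toBlocks₂₂ :=
    continuous_id.matrix_submatrix _ _
  have e11 : (1 : Matrix (m ⊕ n) (m ⊕ n) D).toBlocks₁₁ = 1 := by
    rw [← fromBlocks_one, toBlocks_fromBlocks₁₁]
  have e12 : (1 : Matrix (m ⊕ n) (m ⊕ n) D).toBlocks₁₂ = 0 := by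
    rw [← fromBlocks_one, toBlocks_fromBlocks₁₂]
  have e21 : (1 : Matrix (m ⊕ n) (m ⊕ n) D).toBlocks₂₁ = 0 := by
    rw [← fromBlocks_one, toBlocks_fromBlocks₂₁]
  have e22 : (1 : Matrix (m ⊕ n) (m ⊕ n) D).toBlocks₂₂ = 1 := by
    rw [← fromBlocks_one, toBlocks_fromBlocks₂₂]
  have t11 : Tendsto (fun X : Matrix (m ⊕ n) (m ⊕ n) D => X.toBlocks₁₁) (𝓝 1) (𝓝 1) := by
    have := c11.tendsto 1
    rwa [e11] at this
  set Ai : Matrix (m ⊕ n) (m ⊕ n) D → Matrix m m D := fun X => Ring.inverse X.toBlocks₁₁
  have cAi : ContinuousAt Ai 1 := by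
    have h0 : ContinuousAt Ring.inverse (1 : Matrix (m ⊕ n) (m ⊕ n) D).toBlocks₁₁ := by
      rw [e11]
      exact hm.2
    exact ContinuousAt.comp (f := fun X : Matrix (m ⊕ n) (m ⊕ n) D => X.toBlocks₁₁) h0
      c11.continuousAt
  set S : Matrix (m ⊕ n) (m ⊕ n) D → Matrix n n D := fun X =>
    X.toBlocks₂₂ - X.toBlocks₂₁ * Ai X * X.toBlocks₁₂ with hS
  have cS : ContinuousAt S 1 :=
    c22.continuousAt.sub (cmul (cmul c21.continuousAt cAi) c12.continuousAt)
  have eS : S 1 = 1 := by
    simp only [hS, e22, e21, e12, Matrix.zero_mul, Matrix.mul_zero, sub_zero]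
  set Si : Matrix (m ⊕ n) (m ⊕ n) D → Matrix n n D := fun X => Ring.inverse (S X)
  have cSi : ContinuousAt Si 1 := by
    have h0 : ContinuousAt Ring.inverse (S 1) := by
      rw [eS]
      exact hn.2
    exact ContinuousAt.comp (f := S) h0 cS
  have tS : Tendsto S (𝓝 1) (𝓝 1) := by
    have := cS.tendsto
    rwa [eS] at this
  have ev : ∀ᶠ X in 𝓝 (1 : Matrix (m ⊕ n) (m ⊕ n) D),
      X * Matrix.fromBlocks (Ai X + Ai X * X.toBlocks₁₂ * Si X * X.toBlocks₂₁ * Ai X)
        (-(Ai X * X.toBlocks₁₂ * Si X)) (-(Si X * X.toBlocks₂₁ * Ai X)) (Si X) = 1 ∧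
      Matrix.fromBlocks (Ai X + Ai X * X.toBlocks₁₂ * Si X * X.toBlocks₂₁ * Ai X)
        (-(Ai X * X.toBlocks₁₂ * Si X)) (-(Si X * X.toBlocks₂₁ * Ai X)) (Si X) * X = 1 := by
    filter_upwards [t11.eventually hm.1, tS.eventually hn.1] with X h11 hSX
    have key := block_inverse (A := X.toBlocks₁₁) (Ai := Ai X) (B := X.toBlocks₁₂)
      (C := X.toBlocks₂₁) (E := X.toBlocks₂₂) (S := S X) (Si := Si X)
      (Ring.mul_inverse_cancel _ h11) (Ring.inverse_mul_cancel _ h11) rfl
      (Ring.mul_inverse_cancel _ hSX) (Ring.inverse_mul_cancel _ hSX)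
    rwa [fromBlocks_toBlocks] at key
  refine ⟨?_, ?_⟩
  · filter_upwards [ev] with X hX
    exact ⟨⟨X, _, hX.1, hX.2⟩, rfl⟩
  · have cB : ContinuousAt (fun X : Matrix (m ⊕ n) (m ⊕ n) D =>
        Matrix.fromBlocks (Ai X + Ai X * X.toBlocks₁₂ * Si X * X.toBlocks₂₁ * Ai X)
        (-(Ai X * X.toBlocks₁₂ * Si X)) (-(Si X * X.toBlocks₂₁ * Ai X)) (Si X)) 1 := by
      have hcont : Continuous fun p : (Matrix m m D × Matrix m n D) × (Matrix n m D × Matrix n n D)
          => Matrix.fromBlocks p.1.1 p.1.2 p.2.1 p.2.2 :=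
        (continuous_fst.comp continuous_fst).matrix_fromBlocks
          (continuous_snd.comp continuous_fst) (continuous_fst.comp continuous_snd)
          (continuous_snd.comp continuous_snd)
      refine hcont.continuousAt.comp
        (f := fun X : Matrix (m ⊕ n) (m ⊕ n) D =>
          ((Ai X + Ai X * X.toBlocks₁₂ * Si X * X.toBlocks₂₁ * Ai X,
            -(Ai X * X.toBlocks₁₂ * Si X)), (-(Si X * X.toBlocks₂₁ * Ai X), Si X))) ?_
      have h12 := c12.continuousAt (x := (1 : Matrix (m ⊕ n) (m ⊕ n) D))
      have h21 := c21.continuousAt (x := (1 : Matrix (m ⊕ n) (m ⊕ n) D))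
      exact ((cAi.add (cmul (cmul (cmul (cmul cAi h12) cSi) h21) cAi)).prodMk
        (cmul (cmul cAi h12) cSi).neg).prodMk ((cmul (cmul cSi h21) cAi).neg.prodMk cSi)
    refine cB.congr ?_
    filter_upwards [ev] with X hX
    exact (inverse_eq_of hX.1 hX.2).symm

omit [IsTopologicalRing D] in
theorem InvGood.reindex (e : m ≃ n) (hm : InvGood (Matrix m m D)) : InvGood (Matrix n n D) := by
  refine hm.transfer (Matrix.reindexAlgEquiv ℤ D e).toRingEquiv ?_ ?_
  · change Continuous fun X : Matrix m m D => Matrix.reindexAlgEquiv ℤ D e X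
    rw [Matrix.coe_reindexAlgEquiv]
    exact continuous_id.matrix_submatrix _ _
  · change Continuous fun X : Matrix n n D => (Matrix.reindexAlgEquiv ℤ D e).symm X
    rw [Matrix.symm_reindexAlgEquiv, Matrix.coe_reindexAlgEquiv]
    exact continuous_id.matrix_submatrix _ _

omit [IsTopologicalRing D] in
theorem InvGood.empty [IsEmpty m] : InvGood (Matrix m m D) := by
  refine ⟨Eventually.of_forall fun x => ?_, ?_⟩
  · rw [Subsingleton.elim x 1]
    exact isUnit_one
  · exact continuous_of_const (fun x y => Subsingleton.elim _ _) |>.continuousAt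

omit [IsTopologicalRing D] in
theorem InvGood.unit (h : InvGood D) : InvGood (Matrix Unit Unit D) := by
  refine h.transfer (Matrix.uniqueRingEquiv (m := Unit) (A := D)).symm ?_ ?_
  · refine continuous_matrix fun i j => ?_
    exact continuous_id
  · exact continuous_id.matrix_elem _ _

/-- Inversion is continuous in matrix rings (any finite index type). -/
theorem InvGood.matrix (h : InvGood D) (m : Type*) [Fintype m] [DecidableEq m] :
    InvGood (Matrix m m D) := by
  have key : ∀ k : ℕ, InvGood (Matrix (Fin k) (Fin k) D) := by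
    intro k
    induction k with
    | zero => exact InvGood.empty
    | succ k ih =>
      have h1 : InvGood (Matrix (Fin k ⊕ Unit) (Fin k ⊕ Unit) D) := ih.fromBlocks h.unit
      have e : Fin k ⊕ Unit ≃ Fin (k + 1) :=
        ((Equiv.refl (Fin k)).sumCongr finOneEquiv.symm).trans finSumFinEquiv
      exact h1.reindex e
  exact (key (Fintype.card m)).reindex (Fintype.equivFin m).symm

end blocks

/-- A topological division ring with separated topology is good. -/
theorem invGood_division {D : Type*} [DivisionRing D] [TopologicalSpace D] [T1Space D]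
    [ContinuousInv₀ D] : InvGood D := by
  refine ⟨?_, ?_⟩
  · filter_upwards [isOpen_compl_singleton.mem_nhds (show (1 : D) ∈ ({0}ᶜ : Set D) by simp)]
      with x hx
    exact IsUnit.mk0 x hx
  · rw [Ring.inverse_eq_inv']
    exact continuousAt_inv₀ one_ne_zero

section final

variable {D : Type*} [DivisionRing D] [TopologicalSpace D] [IsTopologicalRing D] [T1Space D]
  [ContinuousInv₀ D] {m : Type*} [Fintype m] [DecidableEq m]

/-- The statement (B2). -/
theorem inv_cont {n : ℕ} (A : Matrix (Fin n) (Fin n) D) (hA : IsUnit A) :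
    (∀ᶠ B in 𝓝 A, IsUnit B) ∧ ContinuousAt Ring.inverse A :=
  ⟨(invGood_division.matrix (Fin n)).eventually hA,
    (invGood_division.matrix (Fin n)).continuousAt hA⟩

theorem eventually_isUnit {A : Matrix m m D} (hA : IsUnit A) : ∀ᶠ B in 𝓝 A, IsUnit B :=
  (invGood_division.matrix m).eventually hA

theorem continuousAt_inverse {A : Matrix m m D} (hA : IsUnit A) :
    ContinuousAt Ring.inverse A :=
  (invGood_division.matrix m).continuousAt hA

theorem isOpen_isUnit : IsOpen {A : Matrix m m D | IsUnit A} :=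
  (invGood_division.matrix m).isOpen_units

theorem tendsto_inverse {α : Type*} {l : Filter α} {f : α → Matrix m m D} {A : Matrix m m D}
    (hA : IsUnit A) (hf : Tendsto f l (𝓝 A)) :
    (∀ᶠ x in l, IsUnit (f x)) ∧
      Tendsto (fun x => Ring.inverse (f x)) l (𝓝 (Ring.inverse A)) :=
  ⟨hf.eventually (eventually_isUnit hA), (invGood_division.matrix m).tendsto hA hf⟩

end final

end Vale.Agent.P011.H341.Odd
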