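import Vale.Agent.P011.H439.State

/-!
**The domain is relatively open.** Continuity of the Sylvester solution at a state, of the two
unitary elements, and openness of the domain among the states.
-/

open Matrix Polynomial Filter Topology
open Vale.Agent.P011.H95.Odd Vale.Agent.P011.H439

set_option linter.unusedSectionVars false

namespace Vale.Agent.P011.H341.Odd

section cont

variable {K D : Type*} [Field K] [DivisionRing D] [Algebra K D]
  [TopologicalSpace K] [TopologicalSpace D] [IsTopologicalRing D]
  {X ι κ : Type*} [TopologicalSpace X] [Fintype ι] [Fintype κ] [DecidableEq ι] [DecidableEq κ]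
  {x : X} {m : ℕ}

omit [TopologicalSpace K] [Algebra K D] [Field K] in
theorem cpow {f : X → Matrix ι ι D} (hf : ContinuousAt f x) (n : ℕ) :
    ContinuousAt (fun y => f y ^ n) x := by
  induction n with
  | zero => simpa using continuousAt_const
  | succ n ih =>
    simp only [pow_succ]
    exact cmul ih hf

omit [IsTopologicalRing D] in
theorem csmul [ContinuousSMul K D] {a b : Type*} {g : X → K} {f : X → Matrix a b D}
    (hg : ContinuousAt g x) (hf : ContinuousAt f x) : ContinuousAt (fun y => g y • f y) x :=
  hg.smul hf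

theorem csum {J : Type*} (s : Finset J) {a b : Type*} {f : J → X → Matrix a b D}
    (hf : ∀ j ∈ s, ContinuousAt (f j) x) : ContinuousAt (fun y => ∑ j ∈ s, f j y) x :=
  tendsto_finsetSum s hf

/-- Values of the monic polynomial. -/
theorem caeval [ContinuousSMul K D] {c : X → Fin m → K} {r : X → Matrix ι ι D}
    (hc : ContinuousAt c x) (hr : ContinuousAt r x) :
    ContinuousAt (fun y => aeval (r y) (Pc (c y))) x := by
  simp only [aeval_Pc]
  refine (cpow hr m).add (csum _ fun i _ => ?_)
  exact csmul (continuousAt_pi.mp hc i) (cpow hr _)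

theorem csylT {ρ : X → Matrix ι ι D} {Z : X → Matrix ι κ D} {t : X → Matrix κ κ D}
    (hρ : ContinuousAt ρ x) (hZ : ContinuousAt Z x) (ht : ContinuousAt t x) (n : ℕ) :
    ContinuousAt (fun y => sylT n (ρ y) (Z y) (t y)) x :=
  csum _ fun _ _ => cmul (cmul (cpow hρ _) hZ) (cpow ht _)

theorem csylP [ContinuousSMul K D] {c : X → Fin m → K} {ρ : X → Matrix ι ι D}
    {Z : X → Matrix ι κ D} {t : X → Matrix κ κ D} (hc : ContinuousAt c x)
    (hρ : ContinuousAt ρ x) (hZ : ContinuousAt Z x) (ht : ContinuousAt t x) :
    ContinuousAt (fun y => sylP (c y) (ρ y) (Z y) (t y)) x :=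
  (csylT hρ hZ ht m).add (csum _ fun i _ => csmul (continuousAt_pi.mp hc i) (csylT hρ hZ ht _))

/-- The solution of the Sylvester equation depends continuously on everything. -/
theorem csyl [ContinuousSMul K D] [T1Space D] [ContinuousInv₀ D] {c : X → Fin m → K}
    {ρ : X → Matrix ι ι D} {Z : X → Matrix ι κ D} {t : X → Matrix κ κ D}
    (hc : ContinuousAt c x) (hρ : ContinuousAt ρ x) (hZ : ContinuousAt Z x)
    (ht : ContinuousAt t x) (hu : IsUnit (aeval (t x) (Pc (c x)))) :
    ContinuousAt (fun y => syl (c y) (ρ y) (Z y) (t y)) x :=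
  cmul (csylP hc hρ hZ ht) (ContinuousAt.comp (f := fun y => aeval (t y) (Pc (c y)))
    (continuousAt_inverse hu) (caeval hc ht))

end cont

section state

variable {K D : Type*} [Field K] [StarRing K] [DivisionRing D] [StarRing D] [Algebra K D]
  [TopologicalSpace K] [ContinuousStar K] [TopologicalSpace D] [IsTopologicalRing D]
  [ContinuousStar D] {X : Type*} [TopologicalSpace X] {x : X} {m b : ℕ}

omit [IsTopologicalRing D] in
theorem ccT {a c : Type*} {f : X → Matrix a c D} (hf : ContinuousAt f x) :
    ContinuousAt (fun y => (f y)ᴴ) x := by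
  have h : Continuous fun M : Matrix a c D => Mᴴ := continuous_id.matrix_conjTranspose
  exact ContinuousAt.comp (f := f) h.continuousAt hf

omit [StarRing D] [DivisionRing D] [Algebra K D] [TopologicalSpace D] [IsTopologicalRing D]
  [ContinuousStar D] in
theorem csc {c : X → Fin m → K} (hc : ContinuousAt c x) : ContinuousAt (fun y => sc (c y)) x :=
  continuousAt_pi.mpr fun i => (continuousAt_pi.mp hc i).star

omit [ContinuousStar K] [StarRing K] [Field K] [Algebra K D] [TopologicalSpace K]
  [ContinuousStar D] [StarRing D] in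
theorem entry {a c : Type*} {f : X → Matrix a c D} (hf : ContinuousAt f x) (i : a) (j : c) :
    ContinuousAt (fun y => f y i j) x := by
  have h : Continuous fun M : Matrix a c D => M i j := continuous_id.matrix_elem i j
  exact ContinuousAt.comp (f := f) h.continuousAt hf

theorem ccop [ContinuousSMul K D] {c : X → Fin m → K} {r : X → Sq D b}
    (hc : ContinuousAt c x) (hr : ContinuousAt r x) :
    ContinuousAt (fun y => aeval (r y) (Pc (sc (c y)))) x :=
  caeval (csc hc) hr

/-- Continuity of `a` at a state. -/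
theorem caa [ContinuousSMul K D] [T1Space D] [ContinuousInv₀ D] {c : X → Fin m → K}
    {r : X → Sq D b} {w1 w2 : X → Col D b} (hc : ContinuousAt c x) (hr : ContinuousAt r x)
    (h1 : ContinuousAt w1 x) (h2 : ContinuousAt w2 x)
    (hu : IsUnit (aeval (r x) (Pc (sc (c x))))) :
    ContinuousAt (fun y => aa (c y) (r y) (w1 y) (w2 y)) x :=
  csyl (csc hc) (ccT hr) ((cmul h2 (ccT h2)).sub (cmul (ccT hr) (cmul h1 (ccT h1)))) hr hu

theorem cuu {w : X → Col D b} {a : X → Sq D b} (hw : ContinuousAt w x) (ha : ContinuousAt a x) :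
    ContinuousAt (fun y => uu (w y) (a y) 0 0) x :=
  entry (continuousAt_const.sub (cmul (cmul (ccT hw) ha) hw)) 0 0

theorem cu1 [ContinuousSMul K D] [T1Space D] [ContinuousInv₀ D] {c : X → Fin m → K}
    {r : X → Sq D b} {w1 w2 : X → Col D b} (hc : ContinuousAt c x) (hr : ContinuousAt r x)
    (h1 : ContinuousAt w1 x) (h2 : ContinuousAt w2 x)
    (hu : IsUnit (aeval (r x) (Pc (sc (c x))))) (ha : IsUnit (aa (c x) (r x) (w1 x) (w2 x))) :
    ContinuousAt (fun y => u1 (c y) (r y) (w1 y) (w2 y)) x :=
  cuu h1 (ContinuousAt.comp (f := fun y => aa (c y) (r y) (w1 y) (w2 y))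
    (continuousAt_inverse ha) (caa hc hr h1 h2 hu))

theorem cu2 [ContinuousSMul K D] [T1Space D] [ContinuousInv₀ D] {c : X → Fin m → K}
    {r : X → Sq D b} {w1 w2 : X → Col D b} (hc : ContinuousAt c x) (hr : ContinuousAt r x)
    (h1 : ContinuousAt w1 x) (h2 : ContinuousAt w2 x)
    (hu : IsUnit (aeval (r x) (Pc (sc (c x))))) (hru : IsUnit (r x))
    (ha : IsUnit (aa (c x) (r x) (w1 x) (w2 x))) :
    ContinuousAt (fun y => u2 (c y) (r y) (w1 y) (w2 y)) x :=
  cuu h2 (cmul (ContinuousAt.comp (f := r) (continuousAt_inverse hru) hr)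
    (ContinuousAt.comp (f := fun y => aa (c y) (r y) (w1 y) (w2 y))
      (continuousAt_inverse ha) (caa hc hr h1 h2 hu)))

end state

section open_

variable {K D E : Type*} [Field K] [StarRing K] [DivisionRing D] [StarRing D] [Algebra K D]
  [AddCommGroup E] [TopologicalSpace D] {W : Set D} {ch : D → E}

/-- `W` is relatively open among the unitary elements. -/
theorem chr_near [IsTopologicalRing D] (hc : Chr K W ch) {u0 : D} (h0 : u0 ∈ W) :
    ∀ᶠ u in 𝓝 u0, u * star u = 1 → u ∈ W := by
  have e1 : u0 * star u0 = 1 := hc.unit u0 h0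
  have e2 : star u0 * u0 = 1 := mul_eq_one_comm.mp e1
  have hcont : Tendsto (fun u : D => star u0 * u) (𝓝 u0) (𝓝 1) := by
    have : Continuous fun u : D => star u0 * u := continuous_const.mul continuous_id
    simpa [e2] using this.tendsto u0
  filter_upwards [hcont.eventually hc.near] with u hu huu
  have h1 : star u0 * u ∈ W := by
    refine hu ?_
    rw [star_mul, star_star, mul_assoc, ← mul_assoc u, huu, one_mul, e2]
  have h2 := hc.mul u0 h0 _ h1
  rwa [← mul_assoc, e1, one_mul] at h2

variable [StarModule K D] [TopologicalSpace K] [ContinuousStar K] [IsTopologicalRing D]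
  [ContinuousInv₀ D] [ContinuousStar D] [T1Space D] {m b : ℕ}

/-- Filter form: a continuous family of states through a point of the domain stays in it. -/
theorem dm_along [ContinuousSMul K D] (hc : Chr K W ch) {X : Type*} [TopologicalSpace X] {x : X}
    {c : X → Fin m → K} {r : X → Sq D b} {w1 w2 : X → Col D b} (hcc : ContinuousAt c x)
    (hr : ContinuousAt r x) (h1 : ContinuousAt w1 x) (h2 : ContinuousAt w2 x)
    (h : Dm W (c x) (r x) (w1 x) (w2 x)) :
    ∀ᶠ y in 𝓝 x, aeval (r y) (Pc (c y)) = 0 → Dm W (c y) (r y) (w1 y) (w2 y) := by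
  filter_upwards [(ccop hcc hr).eventually (eventually_isUnit h.cop),
    hr.eventually (eventually_isUnit h.ru),
    (caa hcc hr h1 h2 h.cop).eventually (eventually_isUnit h.au),
    (cu1 hcc hr h1 h2 h.cop h.au).eventually (chr_near hc h.m1),
    (cu2 hcc hr h1 h2 h.cop h.ru h.au).eventually (chr_near hc h.m2)] with y a1 a2 a3 a4 a5 ann
  exact ⟨ann, a1, a2, a3, a4 (u1_unit ann a1 a3), a5 (u2_unit ann a1 a2 a3)⟩

end open_

section final

variable {K D E : Type*} [Field K] [StarRing K] [DivisionRing D] [StarRing D] [Algebra K D]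
  [StarModule K D] [AddCommGroup E] [TopologicalSpace K] [IsTopologicalRing K] [ContinuousStar K]
  [TopologicalSpace D] [IsTopologicalDivisionRing D] [ContinuousStar D] [T1Space D]
  {W : Set D} {ch : D → E} {m b : ℕ}

/-- The statement (S1). -/
theorem dm_near (hcont : Continuous (algebraMap K D)) (hc : Chr K W ch) {c0 : Fin m → K}
    {r0 : Sq D b} {w1 w2 : Col D b} (h : Dm W c0 r0 w1 w2) :
    ∀ᶠ x : ((Fin m → K) × Sq D b) × Col D b × Col D b in 𝓝 ((c0, r0), w1, w2),
      aeval x.1.2 (Pc x.1.1) = 0 → Dm W x.1.1 x.1.2 x.2.1 x.2.2 := by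
  have : ContinuousSMul K D := continuousSMul_of_algebraMap K D hcont
  exact dm_along (x := ((c0, r0), w1, w2)) hc
    (c := fun x : ((Fin m → K) × Sq D b) × Col D b × Col D b => x.1.1)
    (r := fun x => x.1.2) (w1 := fun x => x.2.1) (w2 := fun x => x.2.2)
    (continuous_fst.comp continuous_fst).continuousAt
    (continuous_snd.comp continuous_fst).continuousAt
    (continuous_fst.comp continuous_snd).continuousAt
    (continuous_snd.comp continuous_snd).continuousAt h

omit [StarModule K D] in
/-- Continuity of `a` at the base. -/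
theorem aa_cont (hcont : Continuous (algebraMap K D)) {c0 : Fin m → K} {r0 : Sq D b}
    (w1 w2 : Col D b) (hcop : IsUnit (aeval r0 (Pc (sc c0)))) :
    ContinuousAt (fun x : ((Fin m → K) × Sq D b) × Col D b × Col D b =>
      aa x.1.1 x.1.2 x.2.1 x.2.2) ((c0, r0), w1, w2) := by
  have : ContinuousSMul K D := continuousSMul_of_algebraMap K D hcont
  exact caa (x := ((c0, r0), w1, w2))
    (c := fun x : ((Fin m → K) × Sq D b) × Col D b × Col D b => x.1.1)
    (r := fun x => x.1.2) (w1 := fun x => x.2.1) (w2 := fun x => x.2.2)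
    (continuous_fst.comp continuous_fst).continuousAt
    (continuous_snd.comp continuous_fst).continuousAt
    (continuous_fst.comp continuous_snd).continuousAt
    (continuous_snd.comp continuous_snd).continuousAt hcop

omit [StarModule K D] in
/-- Continuity of the first element at the base. -/
theorem u1_cont (hcont : Continuous (algebraMap K D)) {c0 : Fin m → K} {r0 : Sq D b}
    {w1 w2 : Col D b} (hcop : IsUnit (aeval r0 (Pc (sc c0)))) (hau : IsUnit (aa c0 r0 w1 w2)) :
    ContinuousAt (fun x : ((Fin m → K) × Sq D b) × Col D b × Col D b =>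
      u1 x.1.1 x.1.2 x.2.1 x.2.2) ((c0, r0), w1, w2) := by
  have : ContinuousSMul K D := continuousSMul_of_algebraMap K D hcont
  exact cu1 (x := ((c0, r0), w1, w2))
    (c := fun x : ((Fin m → K) × Sq D b) × Col D b × Col D b => x.1.1)
    (r := fun x => x.1.2) (w1 := fun x => x.2.1) (w2 := fun x => x.2.2)
    (continuous_fst.comp continuous_fst).continuousAt
    (continuous_snd.comp continuous_fst).continuousAt
    (continuous_fst.comp continuous_snd).continuousAt
    (continuous_snd.comp continuous_snd).continuousAt hcop hau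

omit [StarModule K D] in
/-- Continuity of the second element at the base. -/
theorem u2_cont (hcont : Continuous (algebraMap K D)) {c0 : Fin m → K} {r0 : Sq D b}
    {w1 w2 : Col D b} (hcop : IsUnit (aeval r0 (Pc (sc c0)))) (hru : IsUnit r0)
    (hau : IsUnit (aa c0 r0 w1 w2)) :
    ContinuousAt (fun x : ((Fin m → K) × Sq D b) × Col D b × Col D b =>
      u2 x.1.1 x.1.2 x.2.1 x.2.2) ((c0, r0), w1, w2) := by
  have : ContinuousSMul K D := continuousSMul_of_algebraMap K D hcont
  exact cu2 (x := ((c0, r0), w1, w2))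
    (c := fun x : ((Fin m → K) × Sq D b) × Col D b × Col D b => x.1.1)
    (r := fun x => x.1.2) (w1 := fun x => x.2.1) (w2 := fun x => x.2.2)
    (continuous_fst.comp continuous_fst).continuousAt
    (continuous_snd.comp continuous_fst).continuousAt
    (continuous_fst.comp continuous_snd).continuousAt
    (continuous_snd.comp continuous_snd).continuousAt hcop hru hau

end final

end Vale.Agent.P011.H341.Odd
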